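import Vale.Agent.P281.H740.TM.SpecR
import Vale.Agent.P281.H740.TW.Easy

/-!
# P281, project T-M (helper511), block R2: the situation over a very general point
-/

open Set Filter Vale.Agent.P281
open Vale.Agent.P281.H511.Surf (IsFibration IsFibre)
open Vale.Agent.P281.H64.Thin (IsThinSet)
open Vale.Agent.P281.H64 (IsProperFibration)
open Vale.Agent.P281.H64.Gen (CritStmt)
open Vale.Agent.P281.H713 Vale.Agent.P281.H713.TZ.S
open Vale.Agent.P281.H740
open scoped Topology ContDiff Manifold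

set_option linter.unusedSectionVars false

noncomputable section

namespace Vale.Agent.P281.H511.TM

open Vale.Agent.P281.H740.TM (Sit SitStmt)

section map
variable {E E' E'' E₀ E₁ : Type} [NormedAddCommGroup E] [NormedSpace ℂ E] [NormedAddCommGroup E']
  [NormedSpace ℂ E'] [NormedAddCommGroup E₀] [NormedSpace ℂ E₀] [NormedAddCommGroup E₁]
  [NormedSpace ℂ E₁] [FiniteDimensional ℂ E] [FiniteDimensional ℂ E'] [FiniteDimensional ℂ E₀]
variable {X Y F G : Type} [TopologicalSpace X] [ChartedSpace E X] [IsManifold 𝓘(ℂ, E) ω X]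
  [TopologicalSpace Y] [ChartedSpace E' Y]
  [TopologicalSpace F] [ChartedSpace E₀ F] [IsManifold 𝓘(ℂ, E₀) ω F]
  [TopologicalSpace G] [ChartedSpace E₁ G]

/-- a map to a fibre is a map to the model of the fibre -/
theorem exists_map (hn : Module.finrank ℂ E = Module.finrank ℂ E' + Module.finrank ℂ E₀)
    {f : X → Y} {i : F → X} {y : Y} (hf : ContMDiff 𝓘(ℂ, E) 𝓘(ℂ, E') ω f)
    (hi : ContMDiff 𝓘(ℂ, E₀) 𝓘(ℂ, E) ω i)
    (hsub : ∀ x, f x = y → Function.Surjective (mfderiv 𝓘(ℂ, E) 𝓘(ℂ, E') f x))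
    (himm : ∀ t, Function.Injective (mfderiv 𝓘(ℂ, E₀) 𝓘(ℂ, E) i t)) (hfi : ∀ t, f (i t) = y)
    (hinj : Function.Injective i) (hsur : ∀ x, f x = y → ∃ t, i t = x) {v : G → X}
    (hv : ContMDiff 𝓘(ℂ, E₁) 𝓘(ℂ, E) ω v) (hfv : ∀ s, f (v s) = y) :
    ∃ ι : G → F, (∀ s, i (ι s) = v s) ∧ ContMDiff 𝓘(ℂ, E₁) 𝓘(ℂ, E₀) ω ι := by
  choose ι hι using fun s => hsur (v s) (hfv s)
  refine ⟨ι, hι, fun s => ?_⟩
  obtain ⟨ρ, hρ, hρ0, hρf⟩ := exists_retr hn hf hi (hsub _ (hfi (ι s))) (himm (ι s)) hfi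
  rw [hι s] at hρ hρf
  refine (ContMDiffAt.comp s (g := ρ) (f := v) hρ (hv s)).congr_of_eventuallyEq ?_
  filter_upwards [hv.continuous.continuousAt.eventually hρf] with s' hs'
  refine hinj ?_
  show i (ι s') = i (ρ (v s'))
  rw [hι, hs' (hfv s')]

end map

/-- **R2** -/
theorem sit_of (crit : CritStmt) : SitStmt := by
  intro q X Z Y _ _ _ _ _ _ g h Δ hg hh
  have : T2Space X := hg.hausdorff.1
  have : T2Space Z := hg.hausdorff.2
  have : T2Space Y := hh.hausdorff.2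
  have : CompactSpace X := hg.compact
  have : CompactSpace Z := hh.compact
  have : ConnectedSpace X := hg.connected
  have : ConnectedSpace Z := hh.connected
  have : IsManifold 𝓘(ℂ, Cm (q + 1 + 1)) ω X := hg.manifold.1
  have : IsManifold 𝓘(ℂ, Cm (q + 1)) ω Z := hg.manifold.2
  have : IsManifold 𝓘(ℂ, Cm q) ω Y := hh.manifold.2
  have hf := comp_fib' hg hh
  obtain ⟨Sf, hSf, hPf⟩ := crit (q + 1 + 1) q X Y (fun x => h (g x)) hf.hol hf.fibres
  obtain ⟨Sh, hSh, hPh⟩ := crit (q + 1) q Z Y h hh.hol hh.fibres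
  obtain ⟨Kf, hKf, hsubf⟩ := hSf.2
  obtain ⟨Kh, hKh, hsubh⟩ := hSh.2
  have hPf' := hPf Sf subset_rfl hSf.1
  have hPh' := hPh Sh subset_rfl hSh.1
  refine ⟨fun k => Kf k ∪ Kh k, fun k => H64.Thin.IsThinSet.union (hKf k) (hKh k),
    fun y hy F _ _ _ i C _ _ _ i' hi hinj hi' hinj' => ?_⟩
  have hyf : y ∉ Sf := by
    intro h1
    obtain ⟨k, hk⟩ := mem_iUnion.1 (hsubf h1)
    exact hy k (Or.inl hk)
  have hyh : y ∉ Sh := by
    intro h1
    obtain ⟨k, hk⟩ := mem_iUnion.1 (hsubh h1)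
    exact hy k (Or.inr hk)
  have : CompactSpace F := hi.compact
  have : ConnectedSpace F := hi.connected
  have : Nonempty F := hi.connected.toNonempty
  have : IsManifold 𝓘(ℂ, Cm 2) ω F := hi.manifold
  have : CompactSpace C := hi'.compact
  have : ConnectedSpace C := hi'.connected
  have : Nonempty C := hi'.connected.toNonempty
  have : IsManifold 𝓘(ℂ, Cm 1) ω C := hi'.manifold
  have hn : Module.finrank ℂ (Cm (q + 1 + 1)) =
      Module.finrank ℂ (Cm q) + Module.finrank ℂ (Cm 2) := by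
    simp only [Module.finrank_fin_fun]
  have hn' : Module.finrank ℂ (Cm (q + 1)) =
      Module.finrank ℂ (Cm q) + Module.finrank ℂ (Cm 1) := by
    simp only [Module.finrank_fin_fun]
  have hfsub : ∀ x, h (g x) = y → Function.Surjective
      (mfderiv 𝓘(ℂ, Cm (q + 1 + 1)) 𝓘(ℂ, Cm q) (fun x => h (g x)) x) := fun x hx =>
    hPf'.submersive x (by rw [hx]; exact hyf)
  have hhsub : ∀ z, h z = y → Function.Surjective
      (mfderiv 𝓘(ℂ, Cm (q + 1)) 𝓘(ℂ, Cm q) h z) := fun z hz =>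
    hPh'.submersive z (by rw [hz]; exact hyh)
  have hsur : ∀ x, h (g x) = y → ∃ t, i t = x := fun x hx =>
    surj_fib hn hf.hol hi.hol hfsub hi.immersion hi.fibre (hf.fibres y).isPreconnected hx
  have hsur' : ∀ z, h z = y → ∃ c, i' c = z := fun z hz =>
    surj_fib hn' hh.hol hi'.hol hhsub hi'.immersion hi'.fibre (hh.fibres y).isPreconnected hz
  obtain ⟨γ, hγ, hγc⟩ := exists_map hn' hh.hol hi'.hol hhsub hi'.immersion hi'.fibre hinj' hsur'
    (v := fun t => g (i t)) (hg.hol.comp hi.hol) hi.fibre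
  refine ⟨γ, hi, hi', hinj, hinj', hfsub, hhsub, hsur, hsur', hγc, hγ, fun c => ?_⟩
  have h1 : γ ⁻¹' {c} = i ⁻¹' (g ⁻¹' {i' c}) := by
    ext t
    simp only [mem_preimage, mem_singleton_iff]
    rw [← hγ t]
    exact hinj'.eq_iff.symm
  rw [h1]
  refine (hg.fibres (i' c)).preimage_of_isClosedMap hinj hi.hol.continuous.isClosedMap ?_
  intro x hx
  refine hsur x ?_
  have h2 : g x = i' c := hx
  rw [h2]
  exact hi'.fibre c

end Vale.Agent.P281.H511.TM
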